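import Vale.Agent.H60.Hot.Main

/-!
# P071: the hot spots property for all annular sectors

The annular sector `Ω = {x ∈ ℝ² : a < |x| < b, 0 < arg x < α}` (`0 < a < b`; it is a simply
connected planar Lipschitz domain for `0 < α < 2π`, non-convex, and not a lip domain unless
`α = π / 2`) is the rectangle `(a, b) × (0, α)` in polar coordinates `(r, θ)`, where the Laplacian
is `∂_r² + ∂_r / r + ∂_θ² / r²`, the area element is `r dr dθ`, `|∇ v|² = (∂_r v)² + (∂_θ v)² / r²`,
and the normal derivative is `± ∂_r` on the two arcs and `± ∂_θ / r` on the two straight sides.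

We prove: if `u` is a Neumann eigenfunction of `Ω` (`C^2` up to the boundary in polar
coordinates) with eigenvalue `μ > 0`, where `μ` is a lower bound of the Rayleigh quotient over
`C^1` functions of zero mean (so that `μ = μ₁ (Ω)`), and `u` does not vanish identically, then at
every interior point `(r, θ)`

* the value `u (r, θ)` lies strictly between the values of `u` at two boundary points: the two
  points `(r, 0)`, `(r, α)` of the straight sides, or the two points `(a, θ)`, `(b, θ)` of the
  arcs; in particular `min_{∂Ω} u < u (x) < max_{∂Ω} u` for every `x ∈ Ω`;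
* the gradient of `u` does not vanish: `u` has no critical point in `Ω`.

The proof (`Vale.Agent.H60.Hot`) expands `u` in the cosines `cos (m π θ / α)`: the modes with
`m ≥ 2` vanish, the mode `m = 1` is a ground state of its radial problem and has no zero, and the
mode `m = 0` is strictly monotone in `r`.
-/

namespace Vale.Agent.Results.P071.A_AnnularSectors

theorem result (a b α μ : ℝ) (ha : 0 < a) (hab : a < b) (hα : 0 < α) (hμ : 0 < μ)
    (u : ℝ → ℝ → ℝ) (hu : Vale.Agent.H60.Hot.NeumannEig a b α μ u)
    (hvar : Vale.Agent.H60.Hot.RayleighBound a b α μ)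
    (hne : ∃ r ∈ Set.Icc a b, ∃ θ ∈ Set.Icc (0 : ℝ) α, u r θ ≠ 0) :
    ∀ r ∈ Set.Ioo a b, ∀ θ ∈ Set.Ioo (0 : ℝ) α,
      ((u r α < u r θ ∧ u r θ < u r 0) ∨ (u r 0 < u r θ ∧ u r θ < u r α) ∨
        (u a θ < u r θ ∧ u r θ < u b θ) ∨ (u b θ < u r θ ∧ u r θ < u a θ)) ∧
      (Vale.Agent.H60.Hot.dR u r θ ≠ 0 ∨ Vale.Agent.H60.Hot.dT u r θ ≠ 0) :=
  fun r hr θ hθ =>
    ⟨Vale.Agent.H60.Hot.hot_spots_annular_sector ha hab hα hμ hu hvar hne r hr θ hθ,
      Vale.Agent.H60.Hot.no_critical_point_annular_sector ha hab hα hμ hu hvar hne r hr θ hθ⟩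

end Vale.Agent.Results.P071.A_AnnularSectors
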