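import Vale.Agent.H60.Hot.Main0

/-!
# P071: the hot spots property for all circular sectors

The circular sector `Ω = {x ∈ ℝ² : 0 < |x| < b, 0 < arg x < α}` (a simply connected planar
Lipschitz domain for `0 < α < 2π`, non-convex for `α > π`, and a lip domain only for `α = π / 2`)
is `(0, b) × (0, α)` in polar coordinates `(r, θ)`, where the Laplacian is
`∂_r² + ∂_r / r + ∂_θ² / r²`, the area element is `r dr dθ`,
`|∇ v|² = (∂_r v)² + (∂_θ v)² / r²`, and the normal derivative is `∂_r` on the arc and
`± ∂_θ / r` on the two straight sides.  The vertex `r = 0` is a singular point of the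
coordinates: eigenfunctions are only assumed `C^2` for `r > 0`, bounded and of finite energy, and
the Rayleigh quotient is only tested on `C^1` functions vanishing near the vertex (these are
dense in `H^1`, since a point has zero capacity in the plane).

We prove: if `u` is such a Neumann eigenfunction with eigenvalue `μ > 0`, where `μ` is a lower
bound of the Rayleigh quotient over zero-mean test functions (so that `μ = μ₁ (Ω)`), and `u` does
not vanish identically, then at every interior point `(r, θ)`

* the value `u (r, θ)` lies strictly between the values of `u` at two boundary points: the two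
  points `(r, 0)`, `(r, α)` of the straight sides, or the point `(b, θ)` of the arc and a point
  `(s, 0)`, `0 < s < r`, of a straight side; in particular
  `min_{∂Ω} u < u (x) < max_{∂Ω} u` for every `x ∈ Ω`;
* the gradient of `u` does not vanish: `u` has no critical point in `Ω`.

The proof (`Vale.Agent.H60.Hot`) expands `u` in the cosines `cos (m π θ / α)`: the modes with
`m ≥ 2` vanish, the mode `m = 1` is a ground state of its (singular) radial problem and has no
zero, and the mode `m = 0` is strictly monotone in `r`.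
-/

namespace Vale.Agent.Results.P071.B_CircularSectors

theorem result (b α μ : ℝ) (hb : 0 < b) (hα : 0 < α) (hμ : 0 < μ)
    (u : ℝ → ℝ → ℝ) (hu : Vale.Agent.H60.Hot.NeumannEig0 b α μ u)
    (hvar : Vale.Agent.H60.Hot.RayleighBound0 b α μ)
    (hne : ∃ r ∈ Set.Ioc (0 : ℝ) b, ∃ θ ∈ Set.Icc (0 : ℝ) α, u r θ ≠ 0) :
    ∀ r ∈ Set.Ioo (0 : ℝ) b, ∀ θ ∈ Set.Ioo (0 : ℝ) α,
      ((u r α < u r θ ∧ u r θ < u r 0) ∨ (u r 0 < u r θ ∧ u r θ < u r α) ∨
        (∃ s ∈ Set.Ioo (0 : ℝ) r, u b θ < u r θ ∧ u r θ < u s 0) ∨
        (∃ s ∈ Set.Ioo (0 : ℝ) r, u s 0 < u r θ ∧ u r θ < u b θ)) ∧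
      (Vale.Agent.H60.Hot.dR u r θ ≠ 0 ∨ Vale.Agent.H60.Hot.dT u r θ ≠ 0) :=
  fun r hr θ hθ =>
    ⟨Vale.Agent.H60.Hot.hot_spots_sector hb hα hμ hu hvar hne r hr θ hθ,
      Vale.Agent.H60.Hot.no_critical_point_sector hb hα hμ hu hvar hne r hr θ hθ⟩

end Vale.Agent.Results.P071.B_CircularSectors
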