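import Vale.Agent.H60.Hot.Main
import Vale.Agent.H60.Hot.Main0

/-!
# P071: the hot spots property for all annular sectors and all circular sectors

One theorem with two parts, each with its own quantifiers, in polar coordinates `(r, θ)` (the
Laplacian is `∂_r² + ∂_r / r + ∂_θ² / r²`, the area element is `r dr dθ`, and
`|∇ v|² = (∂_r v)² + (∂_θ v)² / r²`).

(1) The annular sector `{x ∈ ℝ² : a < |x| < b, 0 < arg x < α}`, `0 < a < b`: the rectangle
`(a, b) × (0, α)`.  If `u` is a Neumann eigenfunction (`C^2` up to the boundary in polar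
coordinates) with eigenvalue `μ > 0`, where `μ` is a lower bound of the Rayleigh quotient over
`C^1` functions of zero mean, and `u` does not vanish identically, then at every interior point
`u (r, θ)` lies strictly between `u (r, 0)` and `u (r, α)` or strictly between `u (a, θ)` and
`u (b, θ)`, and the gradient of `u` does not vanish.

(2) The circular sector `{x ∈ ℝ² : 0 < |x| < b, 0 < arg x < α}`: the rectangle `(0, b) × (0, α)`.
If `u` is a bounded Neumann eigenfunction of finite energy (`C^2` for `r > 0`) with eigenvalue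
`μ > 0`, where `μ` is a lower bound of the Rayleigh quotient over `C^1` functions of zero mean
vanishing near the vertex, and `u` does not vanish identically, then at every interior point
`u (r, θ)` lies strictly between `u (r, 0)` and `u (r, α)` or strictly between `u (b, θ)` and a
value `u (s, 0)` with `0 < s < r`, and the gradient of `u` does not vanish.

These are the statements of the hand-ins `A_AnnularSectors` and `B_CircularSectors`; the proofs
are in `Vale.Agent.H60.Hot`.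
-/

namespace Vale.Agent.Results.P071.C_AnnularAndCircularSectors

theorem result :
    (∀ (a b α μ : ℝ), 0 < a → a < b → 0 < α → 0 < μ →
      ∀ u : ℝ → ℝ → ℝ, Vale.Agent.H60.Hot.NeumannEig a b α μ u →
        Vale.Agent.H60.Hot.RayleighBound a b α μ →
        (∃ r ∈ Set.Icc a b, ∃ θ ∈ Set.Icc (0 : ℝ) α, u r θ ≠ 0) →
        ∀ r ∈ Set.Ioo a b, ∀ θ ∈ Set.Ioo (0 : ℝ) α,
          ((u r α < u r θ ∧ u r θ < u r 0) ∨ (u r 0 < u r θ ∧ u r θ < u r α) ∨
            (u a θ < u r θ ∧ u r θ < u b θ) ∨ (u b θ < u r θ ∧ u r θ < u a θ)) ∧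
          (Vale.Agent.H60.Hot.dR u r θ ≠ 0 ∨ Vale.Agent.H60.Hot.dT u r θ ≠ 0)) ∧
    (∀ (b α μ : ℝ), 0 < b → 0 < α → 0 < μ →
      ∀ u : ℝ → ℝ → ℝ, Vale.Agent.H60.Hot.NeumannEig0 b α μ u →
        Vale.Agent.H60.Hot.RayleighBound0 b α μ →
        (∃ r ∈ Set.Ioc (0 : ℝ) b, ∃ θ ∈ Set.Icc (0 : ℝ) α, u r θ ≠ 0) →
        ∀ r ∈ Set.Ioo (0 : ℝ) b, ∀ θ ∈ Set.Ioo (0 : ℝ) α,
          ((u r α < u r θ ∧ u r θ < u r 0) ∨ (u r 0 < u r θ ∧ u r θ < u r α) ∨
            (∃ s ∈ Set.Ioo (0 : ℝ) r, u b θ < u r θ ∧ u r θ < u s 0) ∨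
            (∃ s ∈ Set.Ioo (0 : ℝ) r, u s 0 < u r θ ∧ u r θ < u b θ)) ∧
          (Vale.Agent.H60.Hot.dR u r θ ≠ 0 ∨ Vale.Agent.H60.Hot.dT u r θ ≠ 0)) :=
  ⟨fun _ _ _ _ ha hab hα hμ _ hu hvar hne r hr θ hθ =>
      ⟨Vale.Agent.H60.Hot.hot_spots_annular_sector ha hab hα hμ hu hvar hne r hr θ hθ,
        Vale.Agent.H60.Hot.no_critical_point_annular_sector ha hab hα hμ hu hvar hne r hr θ hθ⟩,
    fun _ _ _ hb hα hμ _ hu hvar hne r hr θ hθ =>
      ⟨Vale.Agent.H60.Hot.hot_spots_sector hb hα hμ hu hvar hne r hr θ hθ,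
        Vale.Agent.H60.Hot.no_critical_point_sector hb hα hμ hu hvar hne r hr θ hθ⟩⟩

end Vale.Agent.Results.P071.C_AnnularAndCircularSectors
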